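import Vale.Agent.P224.PO.LawO
import Vale.Agent.P224.PO.LawNumO
import Vale.Agent.P224.PO.Cst

/-!
The numerical law of the certificate in dimension 13.
-/

namespace Vale.Agent.P224.PO.C13

open Vale.Agent.P224 Vale.Agent.P224.UE Vale.Agent.P224.POS Vale.Agent.P224.PO

/-- the ratio of the least Clifford volume in dimension 13 -/
lemma clifford_le : leastClifford 13 ≤ 1441701 / 1000000 * sphereVol 13 :=
  odd_le (k := 6) (by norm_num) (by norm_num) (by norm_num)

/-- The numerical law in dimension 13. -/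
theorem law_neg {Θ u r H : ℝ} (h1 : 6 / 5 ≤ Θ) (h2 : Θ ≤ 142728399 / 100000000) (hu : 0 ≤ u)
    (hT : Θ ^ 2 * u ≤ 1) (hr1 : u ^ 2 ≤ r) (hr2 : r ≤ u)
    (hH : H = -(66313 / 536870912) + (1919553 / 15032385536) * u + (-(293509 / 15032385536)) * r) :
    Θ * (1 + (-(1191676919 / 1073741824)) * u + (41202439 / 268435456) * r + (81001135 / 536870912) * u ^ 2) + KH 13 * H < 0 := by
  have hb := div_pi_bounds (N := 8388608 / 231) (by norm_num)
  have hK : KH 13 = (8388608 / 231) / Real.pi := by
    have h0 := KHn_13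
    have := Real.pi_pos
    rw [h0]
    try field_simp
  rw [← hK] at hb
  rw [hH]
  exact law_two (Tm := 142728399 / 100000000) hb.1 hb.2 (by norm_num) (by norm_num) (by norm_num) (by norm_num)
    (by norm_num) (by norm_num) (by norm_num)
    (fun T hT1 hT2 => quintic_neg (by norm_num) (by norm_num) (by norm_num) (by norm_num)
      (by norm_num) (by norm_num) (by norm_num) (le_of_eq rfl) (le_of_eq rfl) (le_of_eq rfl)
      (le_of_eq rfl) (le_of_eq rfl) (le_of_eq rfl) hT1 hT2)
    (fun T hT1 hT2 => quintic_neg (by norm_num) (by norm_num) (by norm_num) (by norm_num)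
      (by norm_num) (by norm_num) (by norm_num) (le_of_eq rfl) (le_of_eq rfl) (le_of_eq rfl)
      (le_of_eq rfl) (le_of_eq rfl) (le_of_eq rfl) hT1 hT2)
    (fun T hT1 hT2 => quintic_neg (by norm_num) (by norm_num) (by norm_num) (by norm_num)
      (by norm_num) (by norm_num) (by norm_num) (le_of_eq rfl) (le_of_eq rfl) (le_of_eq rfl)
      (le_of_eq rfl) (le_of_eq rfl) (le_of_eq rfl) hT1 hT2)
    (fun T hT1 hT2 => quintic_neg (by norm_num) (by norm_num) (by norm_num) (by norm_num)
      (by norm_num) (by norm_num) (by norm_num) (le_of_eq rfl) (le_of_eq rfl) (le_of_eq rfl)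
      (le_of_eq rfl) (le_of_eq rfl) (le_of_eq rfl) hT1 hT2)
    h1 h2 hu hT hr1 hr2

end Vale.Agent.P224.PO.C13
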